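import Vale.Agent.P172M11.Final

/-!
# P172: a word-hyperbolic group that is neither a CAT(0) group nor a CAT(-1) group

The Cayley graph is the metric graph with edges of length one and all its geodesic triangles are
thin; the usual readings of CAT and of a geometric action are shown to agree.
-/

namespace Vale.Agent.Results.P172.AMetricCayley

open Vale.Agent.P172 Vale.Agent.P172M11

universe u

theorem result :
    (∃ (G : Type) (_ : Group G), Group.FG G ∧
      (∀ S : Finset G, Subgroup.closure (S : Set G) = ⊤ → HypCayley S) ∧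
      ∀ (X : Type u) [MetricSpace X] [MulAction G X], Nonempty X → ProperSpace X →
        IsIsometricSMul G X → IsCAT (EuclideanSpace ℝ (Fin 2)) X ∨ IsCAT UpperHalfPlane X →
        ¬ Geometric G X) ∧
    (∀ (G : Type) [Group G] (S : Finset G), Subgroup.closure (S : Set G) = ⊤ →
      (∃ (X : Type) (_ : MetricSpace X) (v : G → X) (e : G × S → unitInterval → X),
        IsCayley S X v e) ∧
      (∀ (X : Type) [MetricSpace X] (v : G → X) (e : G × S → unitInterval → X), IsCayley S X v e →
        (∀ x y : X, ∃ γ, IsGeodesic γ x y) ∧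
        (∀ g h, dist (v g) (v h) = (SimpleGraph.mulCayley (S : Set G)).dist g h) ∧
        ∀ (X' : Type) [MetricSpace X'] (v' : G → X') (e' : G × S → unitInterval → X'),
          IsCayley S X' v' e' →
            ∃ f : X ≃ᵢ X', (∀ g, f (v g) = v' g) ∧ ∀ i t, f (e i t) = e' i t) ∧
      ∀ T : Finset G, Subgroup.closure (T : Set G) = ⊤ → HypCayley S → HypCayley T) ∧
    (∀ (X : Type u) [MetricSpace X],
      (IsCAT (EuclideanSpace ℝ (Fin 2)) X ↔ IsCAT' (EuclideanSpace ℝ (Fin 2)) X) ∧
      (IsCAT UpperHalfPlane X ↔ IsCAT' UpperHalfPlane X) ∧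
      ∀ (G : Type) [Group G] [MulAction G X], ProperSpace X → IsIsometricSMul G X →
        (Geometric G X ↔ ProperlyDiscontinuousSMul G X ∧
          ∃ K : Set X, IsCompact K ∧ ⋃ g : G, (fun x => g • x) '' K = Set.univ)) :=
  ⟨group, fun G _ S hS => ⟨(facts G S hS).1, (facts G S hS).2, fun _ hT => every hS hT⟩,
    fun X _ => ⟨cat_E, cat_H, fun G _ _ _ _ => proper_iff G X⟩⟩

end Vale.Agent.Results.P172.AMetricCayley
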